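import Vale.Agent.P340.Examples

open Vale.Agent.P340

/-- Weak normalization implies strong normalization for every memory-closed pure type system,
dependent ones included; more generally weak normalization of a memory extension implies strong
normalization of the original system. -/
theorem Vale.Agent.Results.P340.MemoryClosed.result :
    (∀ (S : Type) (P : Spec S),
      MemoryClosed P → WeaklyNormalizing P → StronglyNormalizing P) ∧
    (∀ (S T : Type) (P : Spec S) (P' : Spec T) (φ : S → T),
      MemoryMap P P' φ → WeaklyNormalizing P' → StronglyNormalizing P) ∧
    (∀ (S : Type) (P : Spec S), WeaklyNormalizing (memExt P) → StronglyNormalizing P) ∧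
    MemoryClosed predicative ∧ MemoryClosed constructions :=
  ⟨fun _ _ h hw => sn_of_memoryMap h hw, fun _ _ _ _ _ h hw => sn_of_memoryMap h hw,
    fun _ P hw => sn_of_memoryMap (memExt_memoryMap P) hw, predicative_memoryClosed,
    constructions_memoryClosed⟩
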