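import Vale.Agent.P340S.Criterion

open Vale.Agent.P340 Vale.Agent.P340S

universe u

/-- For stratified nondependent pure type systems, with no cleanliness or negatability
restriction, weak and strong normalization coincide, and both hold exactly when no copy of
Girard's system occurs. Generalized nondependent systems are stratified. -/
theorem Vale.Agent.Results.P340.StratifiedCriterion.result :
    (∀ (S : Type u) (P : Spec S) (r : S → ℤ), Strat P r →
      (WeaklyNormalizing P ↔ StronglyNormalizing P) ∧
        (StronglyNormalizing P ↔ ∀ c, ¬ Quad P c)) ∧
    (∀ (S : Type u) (P : Spec S), GenNondep P →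
      (WeaklyNormalizing P ↔ StronglyNormalizing P) ∧
        (StronglyNormalizing P ↔ ∀ c, ¬ Quad P c)) :=
  ⟨fun _ _ _ h => criterion h, fun _ _ h => by
    obtain ⟨r, hr⟩ := h.exists_strat
    exact criterion hr⟩
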